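import Vale.Agent.P034.Full.Main

namespace Vale.Agent.Results.P034.ExpectationThresholds

theorem result : ∃ K : ℝ, 1 ≤ K ∧
    ∀ (X : Type) [Fintype X] [DecidableEq X] (F : Finset (Finset X)), ∅ ∉ F →
      (∀ (p : ℝ) (g : Finset X → ℝ), 0 ≤ p → p ≤ 1 → (∀ S, 0 ≤ g S ∧ g S ≤ 1) →
        (∀ H ∈ F, 1 ≤ ∑ S ∈ H.powerset, g S) → ∑ S, g S * p ^ S.card ≤ 1 / 2 →
        ∃ G : Finset (Finset X), (∀ H ∈ F, ∃ S ∈ G, S ⊆ H) ∧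
          ∑ S ∈ G, (p / K) ^ S.card ≤ 1 / 2) ∧
      sSup {p : ℝ | 0 ≤ p ∧ p ≤ 1 ∧ ∃ g : Finset X → ℝ, (∀ S, 0 ≤ g S ∧ g S ≤ 1) ∧
          (∀ H ∈ F, 1 ≤ ∑ S ∈ H.powerset, g S) ∧ ∑ S, g S * p ^ S.card ≤ 1 / 2}
        ≤ K * sSup {p : ℝ | 0 ≤ p ∧ p ≤ 1 ∧ ∃ G : Finset (Finset X),
          (∀ H ∈ F, ∃ S ∈ G, S ⊆ H) ∧ ∑ S ∈ G, p ^ S.card ≤ 1 / 2} :=
  ⟨Vale.Agent.P034.Full.bigK, Vale.Agent.P034.Full.one_le_bigK, fun _ _ _ F hne =>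
    ⟨fun p g hp0 _ hg hcov hcost =>
      Vale.Agent.P034.Full.fractional_to_integral F g p (fun S => (hg S).1) hcov hp0 hcost,
    Vale.Agent.P034.Full.qf_le_mul_q F hne⟩⟩

end Vale.Agent.Results.P034.ExpectationThresholds
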